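import Vale.Agent.P022.H542.L3.Geo

/-! # P022-L3, chapter G: coefficientwise action on `K`, `U`, `V` -/

noncomputable section

open HahnSeries
open scoped IntermediateField

namespace Vale.Agent.P022.H542.L3

theorem algMap_LS (a : ℂ) : algebraMap ℂ LS a = C a := by
  ext n
  simp [HahnSeries.algebraMap_apply']

namespace Geo

variable {B : ℕ} (G : Geo B)

theorem e_inj : Function.Injective G.e := G.e.toRingHom.injective

theorem e_C (a : ℂ) : G.e (algebraMap ℂ G.K a) = C a := by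
  rw [AlgHom.commutes, algMap_LS]

theorem coeff_R [NeZero B] {r : G.K} (hr : r ∈ G.R) (σ : ℂ ≃+* ℂ) : cm σ (G.e r) = G.e r := by
  obtain ⟨m, hm⟩ := G.int r hr
  ext n
  obtain ⟨z, hz⟩ := hm n
  have hB : (B : ℂ) ^ m ≠ 0 := pow_ne_zero _ (by exact_mod_cast NeZero.ne B)
  rw [coeff_cm]
  have h1 : (G.e r).coeff n = z / (B : ℂ) ^ m := by rw [eq_div_iff hB, mul_comm, hz]
  rw [h1]
  simp

theorem exists_s [NeZero B] (σ : ℂ ≃+* ℂ) (x : G.K) : ∃ y : G.K, G.e y = cm σ (G.e x) := by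
  have hx : x ∈ IntermediateField.adjoin ℂ G.R := by rw [G.gen]; trivial
  induction hx using IntermediateField.adjoin_induction with
  | mem r hr => exact ⟨r, (G.coeff_R hr σ).symm⟩
  | algebraMap a => exact ⟨algebraMap ℂ G.K (σ a), by rw [e_C, e_C, cm_C]⟩
  | add x y _ _ h1 h2 =>
    obtain ⟨a, ha⟩ := h1
    obtain ⟨b, hb⟩ := h2
    exact ⟨a + b, by rw [map_add, map_add, map_add, ha, hb]⟩
  | inv x _ h1 =>
    obtain ⟨a, ha⟩ := h1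
    exact ⟨a⁻¹, by rw [map_inv₀, map_inv₀, map_inv₀, ha]⟩
  | mul x y _ _ h1 h2 =>
    obtain ⟨a, ha⟩ := h1
    obtain ⟨b, hb⟩ := h2
    exact ⟨a * b, by rw [map_mul, map_mul, map_mul, ha, hb]⟩

/-- the function underlying the semilinear automorphism -/
def sF [NeZero B] (σ : ℂ ≃+* ℂ) (x : G.K) : G.K := (G.exists_s σ x).choose

theorem e_sF [NeZero B] (σ : ℂ ≃+* ℂ) (x : G.K) : G.e (G.sF σ x) = cm σ (G.e x) :=
  (G.exists_s σ x).choose_spec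

/-- coefficientwise `σ` on `K` -/
def s [NeZero B] : (ℂ ≃+* ℂ) →* (G.K ≃+* G.K) where
  toFun σ :=
    { toFun := G.sF σ
      invFun := G.sF σ⁻¹
      left_inv := fun x => G.e_inj (by
        rw [e_sF, e_sF]; ext n; simp [RingAut.inv_apply])
      right_inv := fun x => G.e_inj (by
        rw [e_sF, e_sF]; ext n; simp [RingAut.inv_apply])
      map_mul' := fun x y => G.e_inj (by rw [e_sF, map_mul, map_mul, map_mul, e_sF, e_sF])
      map_add' := fun x y => G.e_inj (by rw [e_sF, map_add, map_add, map_add, e_sF, e_sF]) }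
  map_one' := by
    ext x
    refine G.e_inj ?_
    show G.e (G.sF 1 x) = G.e x
    rw [e_sF]; ext n; simp
  map_mul' σ τ := by
    ext x
    refine G.e_inj ?_
    show G.e (G.sF (σ * τ) x) = G.e (G.sF σ (G.sF τ x))
    rw [e_sF, e_sF, e_sF, cm_mul_apply]

theorem e_s [NeZero B] (σ : ℂ ≃+* ℂ) (x : G.K) : G.e (G.s σ x) = cm σ (G.e x) := G.e_sF σ x

theorem semi [NeZero B] : G.SemiStmt := fun σ => ⟨G.s σ, G.e_s σ⟩

theorem s_R [NeZero B] (σ : ℂ ≃+* ℂ) {r : G.K} (hr : r ∈ G.R) : G.s σ r = r :=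
  G.e_inj (by rw [e_s, G.coeff_R hr])

theorem s_p [NeZero B] (σ : ℂ ≃+* ℂ) : G.s σ G.p = G.p := G.s_R σ G.pR

theorem s_alg [NeZero B] (σ : ℂ ≃+* ℂ) (a : ℂ) :
    G.s σ (algebraMap ℂ G.K a) = algebraMap ℂ G.K (σ a) :=
  G.e_inj (by rw [e_s, e_C, e_C, cm_C])

theorem s_inv_s [NeZero B] (σ : ℂ ≃+* ℂ) (x : G.K) : G.s σ⁻¹ (G.s σ x) = x := by
  rw [map_inv]; exact (G.s σ).symm_apply_apply x

theorem s_s_inv [NeZero B] (σ : ℂ ≃+* ℂ) (x : G.K) : G.s σ (G.s σ⁻¹ x) = x := by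
  rw [map_inv]; exact (G.s σ).apply_symm_apply x

/-- the elements of the subfield generated by `R` over `ℚ` are fixed -/
theorem s_closure [NeZero B] (σ : ℂ ≃+* ℂ) {x : G.K} (hx : x ∈ Subfield.closure G.R) :
    G.s σ x = x := by
  induction hx using Subfield.closure_induction with
  | mem r hr => exact G.s_R σ hr
  | one => exact map_one _
  | add x y _ _ h1 h2 => rw [map_add, h1, h2]
  | neg x _ h1 => rw [map_neg, h1]
  | inv x _ h1 => rw [map_inv₀, h1]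
  | mul x y _ _ h1 h2 => rw [map_mul, h1, h2]

theorem Aff.map {a : ℂ} (ha : G.Aff a) (σ : ℂ ≃+* ℂ) : G.Aff (σ a) := by
  intro q hq h
  refine ha q hq (σ.injective ?_)
  rw [h, map_ratCast]

/-- conjugation of points by `σ` -/
def conj [NeZero B] (σ : ℂ ≃+* ℂ) (θ : G.K →ₐ[ℂ] LS) : G.K →ₐ[ℂ] LS :=
  { ((cm σ).toRingHom.comp θ.toRingHom).comp (G.s σ⁻¹).toRingHom with
    commutes' := fun a => by
      show cm σ (θ (G.s σ⁻¹ (algebraMap ℂ G.K a))) = _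
      rw [s_alg, AlgHom.commutes, algMap_LS, algMap_LS, cm_C]
      simp [RingAut.inv_apply] }

theorem conj_apply [NeZero B] (σ : ℂ ≃+* ℂ) (θ : G.K →ₐ[ℂ] LS) (x : G.K) :
    G.conj σ θ x = cm σ (θ (G.s σ⁻¹ x)) := rfl

theorem conj_mem [NeZero B] (σ : ℂ ≃+* ℂ) {θ : G.K →ₐ[ℂ] LS} {a : ℂ} (hθ : θ ∈ G.Pt a) :
    G.conj σ θ ∈ G.Pt (σ a) := by
  show G.conj σ θ G.p = _
  have h : θ G.p = C a + single 1 1 := hθ
  rw [conj_apply, s_p, h, map_add, cm_C, cm_single, map_one]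

/-- composition of points with an automorphism of `K/ℂ(p)` -/
theorem comp_mem {θ : G.K →ₐ[ℂ] LS} {a : ℂ} (hθ : θ ∈ G.Pt a) (g : G.K ≃ₐ[ℂ⟮G.p⟯] G.K) :
    θ.comp ((g.restrictScalars ℂ : G.K ≃ₐ[ℂ] G.K) : G.K →ₐ[ℂ] G.K) ∈ G.Pt a := by
  show θ (g G.p) = _
  have h : g G.p = G.p := by
    have := g.commutes (⟨G.p, IntermediateField.mem_adjoin_simple_self ℂ G.p⟩ : ℂ⟮G.p⟯)
    exact this
  rw [h]; exact hθ

theorem g_p (g : G.K ≃ₐ[ℂ⟮G.p⟯] G.K) : g G.p = G.p :=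
  g.commutes (⟨G.p, IntermediateField.mem_adjoin_simple_self ℂ G.p⟩ : ℂ⟮G.p⟯)

/-- `σ` on the units -/
def su [NeZero B] : (ℂ ≃+* ℂ) →* MulAut G.Kˣ where
  toFun σ := Units.mapEquiv (G.s σ).toMulEquiv
  map_one' := by ext x; simp
  map_mul' σ τ := by ext x; simp

@[simp] theorem val_su [NeZero B] (σ : ℂ ≃+* ℂ) (f : G.Kˣ) :
    ((G.su σ f : G.Kˣ) : G.K) = G.s σ (f : G.K) := rfl

theorem su_mem_U [NeZero B] (σ : ℂ ≃+* ℂ) {N : ℕ} {f : G.Kˣ} (hf : f ∈ G.U N) :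
    G.su σ f ∈ G.U N := by
  intro a ha θ hθ
  have h1 : G.conj σ⁻¹ θ ∈ G.Pt (σ⁻¹ a) := G.conj_mem σ⁻¹ hθ
  have h2 := hf (σ⁻¹ a) (Aff.map G ha σ⁻¹) _ h1
  rw [conj_apply, order_cm, inv_inv] at h2
  exact h2

theorem su_mem_pw [NeZero B] (σ : ℂ ≃+* ℂ) {N : ℕ} {f : G.Kˣ} (hf : f ∈ G.pw N) :
    G.su σ f ∈ G.pw N := by
  obtain ⟨g, hg⟩ := hf
  refine ⟨G.su σ g, ?_⟩
  rw [powMonoidHom_apply] at hg ⊢
  rw [← map_pow, hg]

/-- an automorphism `g` of `K/ℂ(p)` on the units -/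
def gu (g : G.K ≃ₐ[ℂ⟮G.p⟯] G.K) : MulAut G.Kˣ := Units.mapEquiv (g : G.K ≃* G.K)

@[simp] theorem val_gu (g : G.K ≃ₐ[ℂ⟮G.p⟯] G.K) (f : G.Kˣ) :
    ((G.gu g f : G.Kˣ) : G.K) = g (f : G.K) := rfl

theorem gu_mem_U (g : G.K ≃ₐ[ℂ⟮G.p⟯] G.K) {N : ℕ} {f : G.Kˣ} (hf : f ∈ G.U N) :
    G.gu g f ∈ G.U N := by
  intro a ha θ hθ
  exact hf a ha _ (G.comp_mem hθ g)

theorem gu_mem_pw (g : G.K ≃ₐ[ℂ⟮G.p⟯] G.K) {N : ℕ} {f : G.Kˣ} (hf : f ∈ G.pw N) :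
    G.gu g f ∈ G.pw N := by
  obtain ⟨h, hg⟩ := hf
  refine ⟨G.gu g h, ?_⟩
  rw [powMonoidHom_apply] at hg ⊢
  rw [← map_pow, hg]

/-- a multiplicative self map of `Kˣ` which preserves `U N` (and of course the powers)
acts on `V N` -/
def onV (N : ℕ) (φ : G.Kˣ →* G.Kˣ) (h : ∀ f ∈ G.U N, φ f ∈ G.U N) : G.V N →* G.V N :=
  QuotientGroup.map _ _ ((φ.comp (G.U N).subtype).codRestrict (G.U N) (fun f => h f f.2))
    (by
      rintro ⟨f, hf⟩ hfp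
      rw [Subgroup.mem_comap, Subgroup.mem_subgroupOf]
      rw [Subgroup.mem_subgroupOf] at hfp
      obtain ⟨g, hg⟩ := hfp
      refine ⟨φ g, ?_⟩
      rw [powMonoidHom_apply] at hg ⊢
      rw [← map_pow]
      exact congrArg φ hg)

/-- the class of `f` -/
def cl (N : ℕ) (f : G.Kˣ) (hf : f ∈ G.U N) : G.V N :=
  QuotientGroup.mk (⟨f, hf⟩ : G.U N)

theorem onV_cl (N : ℕ) (φ : G.Kˣ →* G.Kˣ) (h : ∀ f ∈ G.U N, φ f ∈ G.U N) (f : G.Kˣ)
    (hf : f ∈ G.U N) : G.onV N φ h (G.cl N f hf) = G.cl N (φ f) (h f hf) := rfl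

theorem cl_eq_iff {N : ℕ} {f g : G.Kˣ} (hf : f ∈ G.U N) (hg : g ∈ G.U N) :
    G.cl N f hf = G.cl N g hg ↔ f⁻¹ * g ∈ G.pw N := by
  rw [cl, cl, QuotientGroup.eq, Subgroup.mem_subgroupOf]
  rfl

theorem cl_surj {N : ℕ} (v : G.V N) : ∃ f, ∃ hf : f ∈ G.U N, G.cl N f hf = v := by
  obtain ⟨⟨f, hf⟩, rfl⟩ := QuotientGroup.mk_surjective v
  exact ⟨f, hf, rfl⟩

theorem cl_mul {N : ℕ} {f g : G.Kˣ} (hf : f ∈ G.U N) (hg : g ∈ G.U N) :
    G.cl N (f * g) (mul_mem hf hg) = G.cl N f hf * G.cl N g hg := rfl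

theorem cl_pow {N : ℕ} {f : G.Kˣ} (hf : f ∈ G.U N) (k : ℕ) :
    G.cl N (f ^ k) (pow_mem hf k) = G.cl N f hf ^ k := rfl

/-- the action of `Aut ℂ` on `V N` -/
def act [NeZero B] (N : ℕ) : (ℂ ≃+* ℂ) →* MulAut (G.V N) where
  toFun σ :=
    { G.onV N (G.su σ).toMonoidHom (fun _ h => G.su_mem_U σ h) with
      invFun := G.onV N (G.su σ⁻¹).toMonoidHom (fun _ h => G.su_mem_U σ⁻¹ h)
      left_inv := by
        intro v
        obtain ⟨f, hf, rfl⟩ := G.cl_surj v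
        have h : G.su σ⁻¹ (G.su σ f) = f := by
          ext; exact G.s_inv_s σ _
        show G.cl N (G.su σ⁻¹ (G.su σ f)) _ = G.cl N f hf
        simp only [h]
      right_inv := by
        intro v
        obtain ⟨f, hf, rfl⟩ := G.cl_surj v
        have h : G.su σ (G.su σ⁻¹ f) = f := by
          ext; exact G.s_s_inv σ _
        show G.cl N (G.su σ (G.su σ⁻¹ f)) _ = G.cl N f hf
        simp only [h] }
  map_one' := by
    ext v
    obtain ⟨f, hf, rfl⟩ := G.cl_surj v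
    show G.cl N (G.su 1 f) _ = G.cl N f hf
    have h : G.su 1 f = f := by rw [map_one]; rfl
    simp only [h]
  map_mul' σ τ := by
    ext v
    obtain ⟨f, hf, rfl⟩ := G.cl_surj v
    show G.cl N (G.su (σ * τ) f) _ = G.cl N (G.su σ (G.su τ f)) _
    have h : G.su (σ * τ) f = G.su σ (G.su τ f) := by rw [map_mul]; rfl
    simp only [h]

theorem act_cl [NeZero B] (N : ℕ) (σ : ℂ ≃+* ℂ) {f : G.Kˣ} (hf : f ∈ G.U N) :
    G.act N σ (G.cl N f hf) = G.cl N (G.su σ f) (G.su_mem_U σ hf) := rfl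

end Geo

end Vale.Agent.P022.H542.L3
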