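import Vale.Agent.P022.H542.L3.Act
import Vale.Agent.P022.H964.L3.Orb

/-! # P022-L3, chapter G: commutations -/

noncomputable section

open HahnSeries
open scoped IntermediateField

namespace Vale.Agent.P022.H542.L3

namespace Geo

variable {B : ℕ} (G : Geo B)

theorem g_alg (g : G.K ≃ₐ[ℂ⟮G.p⟯] G.K) (a : ℂ) :
    g (algebraMap ℂ G.K a) = algebraMap ℂ G.K a :=
  (g.restrictScalars ℂ : G.K ≃ₐ[ℂ] G.K).commutes a

/-- coefficientwise `σ` commutes with rational automorphisms of `K/ℂ(p)` -/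
theorem s_comm [NeZero B] (g : G.K ≃ₐ[ℂ⟮G.p⟯] G.K)
    (hg : ∀ r ∈ G.R, g r ∈ Subfield.closure G.R) (σ : ℂ ≃+* ℂ) (x : G.K) :
    G.s σ (g x) = g (G.s σ x) := by
  have hx : x ∈ IntermediateField.adjoin ℂ G.R := by rw [G.gen]; trivial
  induction hx using IntermediateField.adjoin_induction with
  | mem r hr => rw [G.s_R σ hr, G.s_closure σ (hg r hr)]
  | algebraMap a => rw [g_alg, s_alg, g_alg]
  | add x y _ _ h1 h2 => rw [map_add, map_add, map_add, map_add, h1, h2]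
  | inv x _ h1 => rw [map_inv₀, map_inv₀, map_inv₀, map_inv₀, h1]
  | mul x y _ _ h1 h2 => rw [map_mul, map_mul, map_mul, map_mul, h1, h2]

/-- algebraic coefficients are preserved -/
theorem alg_of [NeZero B] (g : G.K ≃ₐ[ℂ⟮G.p⟯] G.K)
    (hg : ∀ r ∈ G.R, g r ∈ Subfield.closure G.R) (x : G.K)
    (ha : ∀ k, IsAlgebraic ℚ ((G.e x).coeff k)) (k : ℤ) :
    IsAlgebraic ℚ ((G.e (g x)).coeff k) := by
  refine H964.L3.alg_of_finite _ ?_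
  refine (Set.finite_singleton ((G.e (g x)).coeff k)).subset ?_
  rintro _ ⟨σ, rfl⟩
  have h1 : G.s (σ : ℂ ≃+* ℂ) x = x := by
    refine G.e_inj ?_
    rw [e_s]
    ext j
    rw [coeff_cm]
    exact σ.commutes ⟨_, mem_algebraicClosure_iff.2 (ha j)⟩
  have h2 := G.s_comm g hg (σ : ℂ ≃+* ℂ) x
  rw [h1] at h2
  have h3 := congrArg (fun y => (G.e y).coeff k) h2
  simp only [e_s, coeff_cm] at h3
  exact h3

end Geo

theorem rs_congr {a b : ℂ} (h : a = b) (ha : a ≠ 0) (hb : b ≠ 0) (x : LS) :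
    rs a ha x = rs b hb x := by
  subst h; rfl

variable {B : ℕ} {G : Geo B}

/-- `T_ℓ` commutes with coefficientwise `σ` -/
theorem T_comm [NeZero B] (H : Hk G) (ℓ : ℕ) (hℓ : ℓ.Prime) (hB : ¬ ℓ ∣ B) (σ : ℂ ≃+* ℂ)
    (f : G.Kˣ) : H.T ℓ (G.su σ f) = G.su σ (H.T ℓ f) := by
  refine Units.ext (G.e_inj ((sb ℓ hℓ.pos).injective ?_))
  set ζ : ℂ := Complex.exp (2 * Real.pi * Complex.I / ℓ) with hζd
  have hζ : IsPrimitiveRoot ζ ℓ := Complex.isPrimitiveRoot_exp ℓ hℓ.ne_zero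
  have hζ' : IsPrimitiveRoot (σ.symm ζ) ℓ := hζ.map_of_injective σ.symm.injective
  rw [H.Te ℓ hℓ hB ζ hζ, Geo.val_su, Geo.val_su, Geo.e_s, Geo.e_s, ← cm_sb,
    H.Te ℓ hℓ hB _ hζ' f, map_mul, map_prod]
  congr 1
  · refine Finset.prod_congr rfl (fun j _ => ?_)
    rw [cm_rs]
    refine rs_congr ?_ _ _ _
    rw [map_pow, RingEquiv.apply_symm_apply]
  · rw [cm_sb, ← Geo.s_comm G (H.D ℓ) (H.Drat ℓ hℓ hB), Geo.e_s]

theorem D_comm [NeZero B] (H : Hk G) (ℓ : ℕ) (hℓ : ℓ.Prime) (hB : ¬ ℓ ∣ B) (σ : ℂ ≃+* ℂ)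
    (f : G.Kˣ) : G.gu (H.D ℓ) (G.su σ f) = G.su σ (G.gu (H.D ℓ) f) := by
  refine Units.ext ?_
  rw [Geo.val_gu, Geo.val_su, Geo.val_su, Geo.val_gu, G.s_comm _ (H.Drat ℓ hℓ hB)]

/-- `act σ` commutes with `T_ℓ` on classes -/
theorem act_T [NeZero B] (H : Hk G) (ℓ : ℕ) (hℓ : ℓ.Prime) (hB : ¬ ℓ ∣ B) (n : ℕ)
    (σ : ℂ ≃+* ℂ) (v : G.V (2 ^ n)) :
    G.act (2 ^ n) σ (G.onV (2 ^ n) (H.T ℓ) (H.TU ℓ hℓ hB n) v) =
      G.onV (2 ^ n) (H.T ℓ) (H.TU ℓ hℓ hB n) (G.act (2 ^ n) σ v) := by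
  obtain ⟨f, hf, rfl⟩ := G.cl_surj v
  rw [Geo.onV_cl, Geo.act_cl, Geo.act_cl, Geo.onV_cl]
  have h := T_comm H ℓ hℓ hB σ f
  simp only [h]

/-- `act σ` commutes with `D_ℓ` on classes -/
theorem act_D [NeZero B] (H : Hk G) (ℓ : ℕ) (hℓ : ℓ.Prime) (hB : ¬ ℓ ∣ B) (n : ℕ)
    (σ : ℂ ≃+* ℂ) (v : G.V (2 ^ n)) :
    G.act (2 ^ n) σ (G.onV (2 ^ n) (G.gu (H.D ℓ)).toMonoidHom
        (fun _ h => G.gu_mem_U (H.D ℓ) h) v) =
      G.onV (2 ^ n) (G.gu (H.D ℓ)).toMonoidHom (fun _ h => G.gu_mem_U (H.D ℓ) h)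
        (G.act (2 ^ n) σ v) := by
  obtain ⟨f, hf, rfl⟩ := G.cl_surj v
  have h := D_comm H ℓ hℓ hB σ f
  show G.cl _ (G.su σ (G.gu (H.D ℓ) f)) _ = G.cl _ (G.gu (H.D ℓ) (G.su σ f)) _
  simp only [h]

end Vale.Agent.P022.H542.L3
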