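import Vale.Agent.P022.H542.L3.Es

/-! # P022-L3, chapter G: unramifiedness on classes -/

noncomputable section

open HahnSeries
open scoped IntermediateField

namespace Vale.Agent.P022.H542.L3

/-- **unramified outside `2B`**, multiplicative form -/
theorem unr_mem (hC : ChevStmt) (hK : KeyStmt) {B : ℕ} [NeZero B] (G : Geo B)
    (n ℓ : ℕ) (hℓ : ℓ.Prime) (hB : ¬ ℓ ∣ B) (h2 : ℓ ≠ 2) (O : ValuationSubring ℂ)
    (hO : O.valuation (ℓ : ℂ) < 1) (σ : ℂ ≃+* ℂ)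
    (hσ : ∀ z ∈ O, IsAlgebraic ℚ z → O.valuation (σ z - z) < 1)
    (f : G.Kˣ) (hf : f ∈ G.U (2 ^ n))
    (ha : ∀ k, IsAlgebraic ℚ ((G.e (f : G.K)).coeff k)) :
    G.su σ f * f⁻¹ ∈ G.pw (2 ^ n) := by
  obtain ⟨W, hW⟩ := hC O
  obtain ⟨c, x, y, hc, hca, hxa, hya, hxO, hyO, hx1, hy1, hxy⟩ :=
    H630.G.prim (NeZero.ne B) G O (f : G.K) f.ne_zero ha
  have hx0 := ne_zero_of_coeff hx1
  have hy0 := ne_zero_of_coeff hy1
  have hcm0 : ∀ z : LS, z ≠ 0 → cm σ z ≠ 0 := fun z hz => (map_ne_zero _).2 hz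
  have hsf : G.e (G.su σ f : G.K) * cm σ y = C (σ c) * cm σ x := by
    rw [Geo.val_su, Geo.e_s, ← map_mul, hxy, map_mul, cm_C]
  have hσc : σ c ≠ 0 := (map_ne_zero _).2 hc
  set F : LS := (cm σ x * x⁻¹) * (cm σ y * y⁻¹)⁻¹ with hF
  set κ : ℂ := σ c * c⁻¹ with hκ
  have hκ0 : κ ≠ 0 := mul_ne_zero hσc (inv_ne_zero hc)
  set q : G.Kˣ := G.su σ f * f⁻¹ with hq
  have hCne : ∀ a : ℂ, a ≠ 0 → (C a : LS) ≠ 0 := fun a h => (map_ne_zero _).2 h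
  have heq : G.e (q : G.K) = C κ * F := by
    have e2 : G.e (G.su σ f : G.K) = C (σ c) * cm σ x * (cm σ y)⁻¹ := by
      rw [eq_mul_inv_iff_mul_eq₀ (hcm0 _ hy0), hsf]
    have e3 : G.e (f : G.K) = C c * x * y⁻¹ := by
      rw [eq_mul_inv_iff_mul_eq₀ hy0, hxy]
    have h5 := hcm0 _ hx0
    have h6 := hcm0 _ hy0
    have hκC : (C κ : LS) = C (σ c) * (C c)⁻¹ := by
      rw [hκ, map_mul (C : ℂ →+* LS) (σ c), map_inv₀]
    rw [hq, Units.val_mul, map_mul, Units.val_inv_eq_inv_val, map_inv₀, e2, e3, hκC, hF]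
    have h7 := hCne _ hc
    field_simp
  have hN : 0 < 2 ^ n := pow_pos (by norm_num) n
  have o1 : One W (sb (2 ^ n) hN (cm σ x) * (sb (2 ^ n) hN x)⁻¹) :=
    ratio hW hxO hx1 (fun k => by
      rw [HahnSeries.coeff_sub, coeff_cm]; exact hσ _ (hxO k) (hxa k)) _ _
  have o2 : One W (sb (2 ^ n) hN (cm σ y) * (sb (2 ^ n) hN y)⁻¹) :=
    ratio hW hyO hy1 (fun k => by
      rw [HahnSeries.coeff_sub, coeff_cm]; exact hσ _ (hyO k) (hya k)) _ _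
  have oF : One W (sb (2 ^ n) hN F) := by
    rw [hF, map_mul, map_inv₀, map_mul, map_mul, map_inv₀, map_inv₀]
    exact o1.mul o2.inv
  set k0 : G.Kˣ := Units.map (algebraMap ℂ G.K : ℂ →* G.K) (Units.mk0 κ hκ0) with hk0
  have hk1 : k0 ∈ G.pw (2 ^ n) := G.const_mem_pw _ hN κ hκ0
  have hqU : q ∈ G.U (2 ^ n) := mul_mem (G.su_mem_U σ hf) (inv_mem hf)
  have hq2 : q * k0⁻¹ ∈ G.pw (2 ^ n) := by
    refine hK B G n ℓ hℓ hB h2 O hO W hW _ (mul_mem hqU (inv_mem (G.pw_le_U _ hk1))) ?_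
    have h9 : G.e ((q * k0⁻¹ : G.Kˣ) : G.K) = F := by
      rw [Units.val_mul, Units.val_inv_eq_inv_val, map_mul, map_inv₀, heq]
      have h10 : G.e (k0 : G.K) = C κ := by
        rw [hk0]; exact G.e_C κ
      rw [h10]
      have := hCne _ hκ0
      field_simp
    rw [h9]
    exact oF
  have h11 := mul_mem hq2 hk1
  rwa [inv_mul_cancel_right] at h11

/-- **[UNR]** -/
theorem unr (hC : ChevStmt) (hK : KeyStmt) {B : ℕ} [NeZero B] (G : Geo B)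
    (n ℓ : ℕ) (hℓ : ℓ.Prime) (hB : ¬ ℓ ∣ B) (h2 : ℓ ≠ 2) (O : ValuationSubring ℂ)
    (hO : O.valuation (ℓ : ℂ) < 1) (σ : ℂ ≃+* ℂ)
    (hσ : ∀ z ∈ O, IsAlgebraic ℚ z → O.valuation (σ z - z) < 1)
    (f : G.Kˣ) (hf : f ∈ G.U (2 ^ n))
    (ha : ∀ k, IsAlgebraic ℚ ((G.e (f : G.K)).coeff k)) :
    G.act (2 ^ n) σ (G.cl _ f hf) = G.cl _ f hf := by
  rw [Geo.act_cl, Geo.cl_eq_iff]
  have h := inv_mem (unr_mem hC hK G n ℓ hℓ hB h2 O hO σ hσ f hf ha)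
  rwa [mul_inv_rev, inv_inv, mul_comm] at h

end Vale.Agent.P022.H542.L3
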