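import Vale.Agent.P022.H138.L3.Fill
import Vale.Agent.P022.H447.L3.Rho
import Vale.Agent.P022.H542.L3.Unr
import Vale.Agent.P022.H542.L3.Com
import Vale.Agent.P022.H619.L3.Chev
import Vale.Agent.P022.H964.L3.KeyS
import Vale.Agent.P022.H116.Place
import Vale.Agent.P022.H565.L3.TwoAct
import Vale.Agent.P022.H452.L3.FD
import Vale.Agent.P022.H916.L3.Cusp
import Vale.Agent.P022.H916.L3.AbsFin

/-! # P022-L3, chapter G: `AbsStmt` is a theorem -/

noncomputable section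

open HahnSeries NumberField

namespace Vale.Agent.P022.H542.L3

/-- the two descriptions of the bounded functions in a class agree -/
theorem mm_le {B : ℕ} (G : Geo B) (N m : ℕ) (f0 : G.Kˣ) :
    H447.L3.Mm G N m (f0 : G.K) f0.ne_zero = G.MM N f0 m := by
  ext x
  have e : ∀ θ : G.K →ₐ[ℂ] LS, x ≠ 0 →
      (θ ((f0 : G.K) * x ^ N)).order = (N : ℤ) * (θ x).order + (θ (f0 : G.K)).order :=
    fun θ hx => H447.L3.order_mul_pow θ N f0.ne_zero hx
  by_cases hx : x = 0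
  · exact ⟨fun _ => Or.inl hx, fun _ => Or.inl hx⟩
  constructor
  · intro h
    rcases h with h | h
    · exact absurd h hx
    · exact Or.inr ⟨fun a ha θ hθ => by rw [← e θ hx]; exact h.1 a ha θ hθ,
        fun θ c hc => by rw [← e θ hx]; exact h.2 θ c hc⟩
  · intro h
    rcases h with h | h
    · exact absurd h hx
    · exact Or.inr ⟨fun a ha θ hθ => by rw [e θ hx]; exact h.1 a ha θ hθ,
        fun θ c hc => by rw [e θ hx]; exact h.2 θ c hc⟩

theorem fd : H916.L3.FdStmt := by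
  intro G N hN
  refine ⟨fun f0 _ m => ?_, fun f0 _ => ?_⟩
  · rw [mm_le]
    exact G.finite_MM (H916.L3.cuspEx G) N hN f0 m
  · obtain ⟨m0, h⟩ := G.exists_MM_ne N hN f0
    refine ⟨m0, fun m hm => ?_⟩
    rw [mm_le]
    exact h m hm

theorem place : H916.L3.PlaceStmt := by
  intro i ℓ P hℓ hPp hP
  obtain ⟨O, hO, h1, h2, h3⟩ := H116.exists_place i P hPp hℓ hP
  let tQ : (ℂ ≃+* ℂ) → (ℂ ≃ₐ[ℚ] ℂ) := fun σ => AlgEquiv.ofRingEquiv (f := σ) (fun r => by simp)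
  refine ⟨O, hO, fun g σ hg hσ => ⟨fun z hz hza => ?_, fun z hz hza => ?_⟩,
    fun g σ hg hσ z hz hza => ?_⟩
  · exact H116.frob (σ := tQ σ) h1 h2 h3 hg hσ hz hza
  · exact H116.frob_symm (σ := tQ σ) h1 h2 h3 hℓ.ne_zero hg hσ hz hza
  · exact (H116.inert (σ := tQ σ) h1 h2 h3 hg hσ hz hza).2

/-- **[ABS]**: the algebraic half of chapter G -/
theorem abs : P022.L3.AbsStmt := by
  have hC : ChevStmt := H619.L3.chev
  have hK : KeyStmt := H964.L3.keyStmt
  refine H916.L3.abs_of fd place ?_ ?_ ?_ ?_ ?_ ?_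
  · intro G n ℓ hℓ hB h2 O hO σ hσ f hf ha
    exact unr hC hK G n ℓ hℓ hB h2 O hO σ hσ f hf ha
  · intro G H n ℓ hℓ hB h2 O hO σ hσ _ f hf ha hD
    exact es_cl hC hK G H n ℓ hℓ hB h2 O hO σ hσ f hf ha hD
  · intro G H ℓ hℓ hB σ f
    exact T_comm H ℓ hℓ hB σ f
  · intro G H ℓ hℓ hB σ x
    exact G.s_comm _ (H.Drat ℓ hℓ hB) σ x
  · intro G H ℓ hℓ hB x hx
    exact G.alg_of _ (H.Drat ℓ hℓ hB) x hx
  · intro G n hfin σ
    exact H565.TwoG.act_two G n σ

end Vale.Agent.P022.H542.L3
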