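import Mathlib

/-! # P022-L3, chapter G: three ring homomorphisms on `ℂ((t))`
coefficientwise `σ`, `t ↦ t^m`, `t ↦ ζ t`. -/

noncomputable section

open HahnSeries

namespace Vale.Agent.P022.H542.L3

/-- the field `ℂ((t))` -/
abbrev LS : Type := LaurentSeries ℂ

/-- coefficientwise `σ` -/
def cmF (σ : ℂ ≃+* ℂ) (x : LS) : LS :=
  HahnSeries.map x (σ : ℂ →+* ℂ)

@[simp] theorem coeff_cmF (σ : ℂ ≃+* ℂ) (x : LS) (n : ℤ) : (cmF σ x).coeff n = σ (x.coeff n) := rfl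

theorem cmF_mul (σ : ℂ ≃+* ℂ) (x y : LS) : cmF σ (x * y) = cmF σ x * cmF σ y := by
  have hs : ∀ z : LS, (cmF σ z).support = z.support := by
    intro z; ext n; simp [HahnSeries.mem_support]
  ext n
  rw [coeff_cmF, HahnSeries.coeff_mul, HahnSeries.coeff_mul, map_sum]
  refine Finset.sum_congr ?_ ?_
  · ext ij
    simp only [Finset.mem_antidiagonal, hs]
  · intro ij _
    simp

/-- coefficientwise `σ` as a ring automorphism of `ℂ((t))` -/
def cm (σ : ℂ ≃+* ℂ) : LS ≃+* LS where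
  toFun := cmF σ
  invFun := cmF σ.symm
  left_inv x := by ext n; simp
  right_inv x := by ext n; simp
  map_mul' := cmF_mul σ
  map_add' x y := by ext n; simp

@[simp] theorem coeff_cm (σ : ℂ ≃+* ℂ) (x : LS) (n : ℤ) : (cm σ x).coeff n = σ (x.coeff n) := rfl

@[simp] theorem cm_C (σ : ℂ ≃+* ℂ) (a : ℂ) : cm σ (C a) = C (σ a) := by
  ext n
  rw [coeff_cm, HahnSeries.C_apply, HahnSeries.C_apply, HahnSeries.coeff_single,
    HahnSeries.coeff_single]
  split_ifs <;> simp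

@[simp] theorem cm_single (σ : ℂ ≃+* ℂ) (m : ℤ) (a : ℂ) : cm σ (single m a) = single m (σ a) := by
  ext n
  rw [coeff_cm, HahnSeries.coeff_single, HahnSeries.coeff_single]
  split_ifs <;> simp

theorem cm_mul_apply (σ τ : ℂ ≃+* ℂ) (x : LS) : cm (σ * τ) x = cm σ (cm τ x) := by
  ext n; simp

theorem cm_symm (σ : ℂ ≃+* ℂ) (x : LS) : cm σ.symm (cm σ x) = x := by
  ext n; simp

theorem order_cm (σ : ℂ ≃+* ℂ) (x : LS) : (cm σ x).order = x.order := by
  by_cases hx : x = 0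
  · subst hx; rw [map_zero]
  · have hy : cm σ x ≠ 0 := (map_ne_zero _).2 hx
    apply le_antisymm
    · apply HahnSeries.order_le_of_coeff_ne_zero
      rw [coeff_cm]
      exact (map_ne_zero _).2 (HahnSeries.coeff_order_eq_zero.not.2 hx)
    · apply HahnSeries.order_le_of_coeff_ne_zero
      intro h
      have h2 : (cm σ x).coeff (cm σ x).order = 0 := by rw [coeff_cm, h, map_zero]
      exact hy (HahnSeries.coeff_order_eq_zero.1 h2)

/-- `t ↦ t^m` on `ℂ((t))` -/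
def sb (m : ℕ) (hm : 0 < m) : LS →+* LS :=
  HahnSeries.embDomainRingHom (AddMonoidHom.mulLeft (m : ℤ))
    (fun a b h => by
      have hm' : (m : ℤ) ≠ 0 := by exact_mod_cast hm.ne'
      exact mul_left_cancel₀ hm' h)
    (fun a b => by
      have hm' : (0 : ℤ) < m := by exact_mod_cast hm
      exact mul_le_mul_iff_right₀ hm')

theorem coeff_sb_mul (m : ℕ) (hm : 0 < m) (x : LS) (n : ℤ) :
    (sb m hm x).coeff (m * n) = x.coeff n :=
  HahnSeries.embDomain_coeff (f := ⟨⟨fun a : ℤ => (m : ℤ) * a, fun a b h => by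
      have hm' : (m : ℤ) ≠ 0 := by exact_mod_cast hm.ne'
      exact mul_left_cancel₀ hm' h⟩, by
      intro a b
      have hm' : (0 : ℤ) < m := by exact_mod_cast hm
      exact mul_le_mul_iff_right₀ hm'⟩)

theorem coeff_sb_of_not_dvd (m : ℕ) (hm : 0 < m) (x : LS) (n : ℤ) (h : ¬ (m : ℤ) ∣ n) :
    (sb m hm x).coeff n = 0 := by
  refine HahnSeries.embDomain_notin_range ?_
  rintro ⟨k, hk⟩
  exact h ⟨k, hk.symm⟩

theorem sb_C (m : ℕ) (hm : 0 < m) (a : ℂ) : sb m hm (C a) = C a :=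
  HahnSeries.embDomainRingHom_C

theorem cm_sb (σ : ℂ ≃+* ℂ) (m : ℕ) (hm : 0 < m) (x : LS) :
    cm σ (sb m hm x) = sb m hm (cm σ x) := by
  ext n
  by_cases h : (m : ℤ) ∣ n
  · obtain ⟨k, rfl⟩ := h
    rw [coeff_cm, coeff_sb_mul, coeff_sb_mul, coeff_cm]
  · rw [coeff_cm, coeff_sb_of_not_dvd _ _ _ _ h, coeff_sb_of_not_dvd _ _ _ _ h, map_zero]

/-- the function `t ↦ ζ t` -/
def rsF (ζ : ℂ) (x : LS) : LS := ⟨fun n => ζ ^ n * x.coeff n, by
    refine x.isPWO_support.mono ?_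
    intro n hn
    rw [Function.mem_support] at hn
    exact fun h => hn (by rw [h, mul_zero])⟩

@[simp] theorem coeff_rsF (ζ : ℂ) (x : LS) (n : ℤ) : (rsF ζ x).coeff n = ζ ^ n * x.coeff n := rfl

theorem rsF_mul (ζ : ℂ) (hζ : ζ ≠ 0) (x y : LS) : rsF ζ (x * y) = rsF ζ x * rsF ζ y := by
  have hs : ∀ z : LS, (rsF ζ z).support = z.support := by
    intro z; ext n; simp [HahnSeries.mem_support, zpow_ne_zero n hζ]
  ext n
  rw [coeff_rsF, HahnSeries.coeff_mul, HahnSeries.coeff_mul, Finset.mul_sum]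
  refine Finset.sum_congr ?_ ?_
  · ext ij
    simp only [Finset.mem_antidiagonal, hs]
  · intro ij hij
    have h := (Finset.mem_antidiagonal.1 hij).2.2
    rw [coeff_rsF, coeff_rsF, ← h, zpow_add₀ hζ]; ring

/-- `t ↦ ζ t` on `ℂ((t))` -/
def rs (ζ : ℂ) (hζ : ζ ≠ 0) : LS →+* LS where
  toFun := rsF ζ
  map_one' := by
    ext n
    rw [coeff_rsF, HahnSeries.coeff_one]
    split_ifs with h
    · simp [h]
    · simp
  map_zero' := by ext n; simp
  map_add' x y := by ext n; simp [mul_add]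
  map_mul' := rsF_mul ζ hζ

@[simp] theorem coeff_rs (ζ : ℂ) (hζ : ζ ≠ 0) (x : LS) (n : ℤ) :
    (rs ζ hζ x).coeff n = ζ ^ n * x.coeff n := rfl

theorem rs_C (ζ : ℂ) (hζ : ζ ≠ 0) (a : ℂ) : rs ζ hζ (C a) = C a := by
  ext n
  rw [coeff_rs, HahnSeries.C_apply, HahnSeries.coeff_single]
  split_ifs with h
  · simp [h]
  · simp

theorem cm_rs (σ : ℂ ≃+* ℂ) (ζ : ℂ) (hζ : ζ ≠ 0) (x : LS) :
    cm σ (rs ζ hζ x) = rs (σ ζ) ((map_ne_zero σ).2 hζ) (cm σ x) := by
  ext n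
  simp

end Vale.Agent.P022.H542.L3
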