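import Vale.Agent.P022.H542.L3.Ser

/-! # P022-L3, chapter G: the structure `Geo` = function field with its `t`-expansion and points

`B` = product of the bad primes (`2` for level one, `6` for level three).
Everything below is algebra: no `ℍ`, no modular forms. -/

noncomputable section

open HahnSeries
open scoped IntermediateField

namespace Vale.Agent.P022.H542.L3

/-- `a ∈ ℤ[1/B]` -/
def BInt (B : ℕ) (a : ℂ) : Prop := ∃ (m : ℕ) (z : ℤ), (B : ℂ) ^ m * a = z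

/-- `a` is a unit of `ℤ[1/B]` -/
def BUnit (B : ℕ) (a : ℂ) : Prop := BInt B a ∧ BInt B a⁻¹ ∧ a ≠ 0

/-- the function field `K` over `ℂ`, Galois with a `2`-group over `ℂ(p)`, generated by elements with
`t`-expansions in `ℤ[1/B]((t))`, unramified over `ℂ` outside the finite set `S` of cusp values -/
structure Geo (B : ℕ) where
  K : Type
  [fK : Field K]
  [aK : Algebra ℂ K]
  /-- the Hauptmodul of the base -/
  p : K
  /-- generators over `ℂ` -/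
  R : Set K
  /-- the `t`-expansion -/
  e : K →ₐ[ℂ] LS
  /-- the finite cusp values of `p` -/
  S : Finset ℚ
  pR : p ∈ R
  gen : IntermediateField.adjoin ℂ R = ⊤
  int : ∀ r ∈ R, ∃ m : ℕ, ∀ n : ℤ, ∃ z : ℤ, (B : ℂ) ^ m * (e r).coeff n = z
  lead : ∃ n : ℤ, n ≠ 0 ∧ BUnit B ((e p).coeff n)
  Sint : ∀ s ∈ S, BInt B (s : ℂ)
  Ssep : ∀ s ∈ S, ∀ s' ∈ S, s ≠ s' → BUnit B ((s : ℂ) - s')
  fin : FiniteDimensional ℂ⟮p⟯ K
  gal : IsGalois ℂ⟮p⟯ K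
  two : IsPGroup 2 (K ≃ₐ[ℂ⟮p⟯] K)
  pt : ∀ a : ℂ, (∀ s ∈ S, a ≠ (s : ℂ)) → ∃ θ : K →ₐ[ℂ] LS, θ p = C a + single 1 1

attribute [instance] Geo.fK Geo.aK

namespace Geo

variable {B : ℕ} (G : Geo B)

/-- `a` is not a cusp value -/
def Aff (a : ℂ) : Prop := ∀ s ∈ G.S, a ≠ (s : ℂ)

/-- the points over `a` (as Laurent expansions in `p - a`) -/
def Pt (a : ℂ) : Set (G.K →ₐ[ℂ] LS) := {θ | θ G.p = C a + single 1 1}

/-- the functions all of whose orders at the affine points are divisible by `N` -/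
def U (N : ℕ) : Subgroup G.Kˣ where
  carrier := {f | ∀ a, G.Aff a → ∀ θ ∈ G.Pt a, (N : ℤ) ∣ (θ (f : G.K)).order}
  one_mem' := by
    intro a _ θ _
    simp
  mul_mem' := by
    intro f g hf hg a ha θ hθ
    have h1 : θ (f : G.K) ≠ 0 := (map_ne_zero _).2 f.ne_zero
    have h2 : θ (g : G.K) ≠ 0 := (map_ne_zero _).2 g.ne_zero
    rw [Units.val_mul, map_mul, HahnSeries.order_mul h1 h2]
    exact dvd_add (hf a ha θ hθ) (hg a ha θ hθ)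
  inv_mem' := by
    intro f hf a ha θ hθ
    have h1 : θ (f : G.K) ≠ 0 := (map_ne_zero _).2 f.ne_zero
    have h2 : θ ((f⁻¹ : G.Kˣ) : G.K) ≠ 0 := (map_ne_zero _).2 (f⁻¹).ne_zero
    have h : (θ (f : G.K)).order + (θ ((f⁻¹ : G.Kˣ) : G.K)).order = 0 := by
      rw [← HahnSeries.order_mul h1 h2, ← map_mul, ← Units.val_mul, mul_inv_cancel]
      simp
    have h' : (θ ((f⁻¹ : G.Kˣ) : G.K)).order = -(θ (f : G.K)).order := by omega
    rw [h']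
    exact (dvd_neg).2 (hf a ha θ hθ)

theorem mem_U {N : ℕ} {f : G.Kˣ} : f ∈ G.U N ↔
    ∀ a, G.Aff a → ∀ θ ∈ G.Pt a, (N : ℤ) ∣ (θ (f : G.K)).order := Iff.rfl

/-- the `N`-th powers -/
def pw (N : ℕ) : Subgroup G.Kˣ := (powMonoidHom N : G.Kˣ →* G.Kˣ).range

theorem mem_pw {N : ℕ} {f : G.Kˣ} : f ∈ G.pw N ↔ ∃ g : G.Kˣ, g ^ N = f := Iff.rfl

theorem pw_le_U (N : ℕ) : G.pw N ≤ G.U N := by
  rintro f ⟨g, rfl⟩ a _ θ _
  rw [powMonoidHom_apply, Units.val_pow_eq_pow_val, map_pow, HahnSeries.order_pow]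
  exact ⟨_, by rw [nsmul_eq_mul]⟩

/-- constants are `N`-th powers -/
theorem const_mem_pw (N : ℕ) (hN : 0 < N) (a : ℂ) (ha : a ≠ 0) :
    (Units.map (algebraMap ℂ G.K : ℂ →* G.K) (Units.mk0 a ha)) ∈ G.pw N := by
  obtain ⟨b, hb⟩ := IsAlgClosed.exists_pow_nat_eq a hN
  have hb0 : b ≠ 0 := by rintro rfl; exact ha (by rw [← hb, zero_pow hN.ne'])
  refine ⟨Units.map (algebraMap ℂ G.K : ℂ →* G.K) (Units.mk0 b hb0), ?_⟩
  ext
  simp [← hb]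

/-- the classes: `V(N) = U(N) / (Kˣ)^N` -/
abbrev V (N : ℕ) : Type := G.U N ⧸ (G.pw N).subgroupOf (G.U N)

/-- **the semilinear extension of `σ`** (row [SEMI]) -/
def SemiStmt : Prop := ∀ σ : ℂ ≃+* ℂ, ∃ φ : G.K ≃+* G.K, ∀ x, G.e (φ x) = cm σ (G.e x)

end Geo

/-- Hecke operators at the good primes -/
structure Hk {B : ℕ} (G : Geo B) where
  D : ℕ → (G.K ≃ₐ[ℂ⟮G.p⟯] G.K)
  Drat : ∀ ℓ : ℕ, ℓ.Prime → ¬ ℓ ∣ B → ∀ r ∈ G.R, D ℓ r ∈ Subfield.closure G.R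
  T : ℕ → (G.Kˣ →* G.Kˣ)
  Te : ∀ ℓ : ℕ, ∀ h : ℓ.Prime, ¬ ℓ ∣ B → ∀ ζ : ℂ, (hζ : IsPrimitiveRoot ζ ℓ) → ∀ f : G.Kˣ,
    sb ℓ h.pos (G.e (T ℓ f : G.K)) =
      (∏ j ∈ Finset.range ℓ, rs (ζ ^ j) (pow_ne_zero _ (hζ.ne_zero h.ne_zero)) (G.e (f : G.K))) *
        sb (ℓ * ℓ) (Nat.mul_pos h.pos h.pos) (G.e (D ℓ (f : G.K)))
  TU : ∀ ℓ : ℕ, ℓ.Prime → ¬ ℓ ∣ B → ∀ n : ℕ, ∀ f ∈ G.U (2 ^ n), T ℓ f ∈ G.U (2 ^ n)

/-- `W` is a valuation ring of `ℂ((s))` over the valuation ring `O` of `ℂ` for which the series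
with coefficients in `O`, not all in the maximal ideal, are units -/
structure Wok (O : ValuationSubring ℂ) (W : ValuationSubring LS) : Prop where
  mem : ∀ x : LS, (∀ n, x.coeff n ∈ O) → x ∈ W
  inv : ∀ x : LS, (∀ n, x.coeff n ∈ O) → (∃ n, (x.coeff n)⁻¹ ∈ O ∧ x.coeff n ≠ 0) → x⁻¹ ∈ W
  max : ∀ x : LS, (∀ n, O.valuation (x.coeff n) < 1) → W.valuation x < 1

/-- row [CHEV] (helper619) -/
def ChevStmt : Prop := ∀ O : ValuationSubring ℂ, ∃ W : ValuationSubring LS, Wok O W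

/-- **KEY LEMMA (D)** (row [KEYL]): a function with all orders divisible by `2^n` whose expansion is
`1` modulo the valuation is a `2^n`-th power -/
def KeyStmt : Prop := ∀ (B : ℕ) (G : Geo B) (n : ℕ) (ℓ : ℕ), ℓ.Prime → ¬ ℓ ∣ B → ℓ ≠ 2 →
  ∀ O : ValuationSubring ℂ, O.valuation (ℓ : ℂ) < 1 → ∀ W : ValuationSubring LS, Wok O W →
  ∀ f ∈ G.U (2 ^ n),
    W.valuation (sb (2 ^ n) (pow_pos (by norm_num) n) (G.e (f : G.K)) - 1) < 1 → f ∈ G.pw (2 ^ n)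

end Vale.Agent.P022.H542.L3
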