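import Vale.Agent.P022.H542.L3.Fes
import Vale.Agent.P022.H542.L3.Act
import Vale.Agent.P022.H630.L3.PrimG

/-! # P022-L3, chapter G: the Eichler-Shimura relation on classes -/

noncomputable section

open HahnSeries
open scoped IntermediateField

namespace Vale.Agent.P022.H542.L3

/-- `u ≡ 1` modulo the maximal ideal of `W` -/
def One (W : ValuationSubring LS) (u : LS) : Prop := W.valuation (u - 1) < 1

namespace One

variable {W : ValuationSubring LS}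

theorem val {u : LS} (h : One W u) : W.valuation u = 1 := by
  have h1 : u = 1 + (u - 1) := by ring
  rw [h1, Valuation.map_add_eq_of_lt_left _ (by rw [map_one]; exact h), map_one]

theorem ne_zero {u : LS} (h : One W u) : u ≠ 0 := by
  rintro rfl
  have := h.val
  rw [map_zero] at this
  exact zero_ne_one this

theorem mul {u v : LS} (hu : One W u) (hv : One W v) : One W (u * v) := by
  have h1 : u * v - 1 = (u - 1) * v + (v - 1) := by ring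
  unfold One
  rw [h1]
  refine lt_of_le_of_lt (W.valuation.map_add _ _) (max_lt ?_ hv)
  rw [map_mul, hv.val, mul_one]
  exact hu

theorem inv {u : LS} (hu : One W u) : One W u⁻¹ := by
  have h1 : u⁻¹ - 1 = -(u - 1) * u⁻¹ := by
    have := hu.ne_zero
    field_simp
    ring
  unfold One
  rw [h1, map_mul, Valuation.map_neg, map_inv₀, hu.val, inv_one, mul_one]
  exact hu

end One

theorem sb_ne_zero (m : ℕ) (hm : 0 < m) {x : LS} (hx : x ≠ 0) : sb m hm x ≠ 0 :=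
  (map_ne_zero _).2 hx

theorem ne_zero_of_coeff {x : LS} (h : ∃ n, x.coeff n = 1) : x ≠ 0 := by
  rintro rfl
  obtain ⟨n, hn⟩ := h
  simp at hn

theorem sb_coeff_or (m : ℕ) (hm : 0 < m) (x : LS) (n : ℤ) :
    (sb m hm x).coeff n = 0 ∨ ∃ k, (sb m hm x).coeff n = x.coeff k := by
  by_cases hd : (m : ℤ) ∣ n
  · obtain ⟨k, rfl⟩ := hd
    exact Or.inr ⟨k, coeff_sb_mul _ _ _ _⟩
  · exact Or.inl (coeff_sb_of_not_dvd _ _ _ _ hd)

theorem sb_mem {O : ValuationSubring ℂ} (m : ℕ) (hm : 0 < m) {x : LS} (h : ∀ n, x.coeff n ∈ O)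
    (n : ℤ) : (sb m hm x).coeff n ∈ O := by
  rcases sb_coeff_or m hm x n with h1 | ⟨k, h1⟩
  · rw [h1]; exact zero_mem _
  · rw [h1]; exact h k

theorem sb_one_coeff (m : ℕ) (hm : 0 < m) {x : LS} (h : ∃ n, x.coeff n = 1) :
    ∃ n, (sb m hm x).coeff n = 1 := by
  obtain ⟨n, hn⟩ := h
  exact ⟨m * n, by rw [coeff_sb_mul, hn]⟩

/-- the quotient of two congruent primitive series is `≡ 1` -/
theorem ratio {O : ValuationSubring ℂ} {W : ValuationSubring LS} (hW : Wok O W) {a b : LS}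
    (hb : ∀ n, b.coeff n ∈ O) (h1 : ∃ n, b.coeff n = 1)
    (hab : ∀ n, O.valuation ((a - b).coeff n) < 1) (m : ℕ) (hm : 0 < m) :
    One W (sb m hm a * (sb m hm b)⁻¹) := by
  have hb0 : sb m hm b ≠ 0 := sb_ne_zero m hm (ne_zero_of_coeff h1)
  have h2 : sb m hm a * (sb m hm b)⁻¹ - 1 = sb m hm (a - b) * (sb m hm b)⁻¹ := by
    rw [map_sub, sub_mul, mul_inv_cancel₀ hb0]
  unfold One
  rw [h2, map_mul]
  have h3 : W.valuation (sb m hm (a - b)) < 1 := by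
    refine hW.max _ (fun n => ?_)
    rcases sb_coeff_or m hm (a - b) n with h | ⟨k, h⟩
    · rw [h, map_zero]; exact zero_lt_one
    · rw [h]; exact hab k
  have h4 : W.valuation (sb m hm b)⁻¹ ≤ 1 := by
    rw [W.valuation_le_one_iff]
    refine hW.inv _ (sb_mem m hm hb) ?_
    obtain ⟨n, hn⟩ := sb_one_coeff m hm h1
    exact ⟨n, by rw [hn, inv_one]; exact one_mem _, by rw [hn]; exact one_ne_zero⟩
  exact lt_of_le_of_lt (mul_le_of_le_one_right' h4) h3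

theorem sb_sb' (m k : ℕ) (hm : 0 < m) (hk : 0 < k) (x : LS) :
    sb (m * k) (Nat.mul_pos hm hk) x = sb m hm (sb k hk x) := by
  ext n
  by_cases hd : (m : ℤ) ∣ n
  · obtain ⟨j, rfl⟩ := hd
    rw [coeff_sb_mul]
    by_cases hd2 : (k : ℤ) ∣ j
    · obtain ⟨i, rfl⟩ := hd2
      rw [coeff_sb_mul]
      have : (m : ℤ) * (k * i) = ((m * k : ℕ) : ℤ) * i := by push_cast; ring
      rw [this, coeff_sb_mul]
    · rw [coeff_sb_of_not_dvd _ _ _ _ hd2, coeff_sb_of_not_dvd]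
      intro h
      apply hd2
      obtain ⟨i, hi⟩ := h
      refine ⟨i, ?_⟩
      have hm0 : (m : ℤ) ≠ 0 := by exact_mod_cast hm.ne'
      apply mul_left_cancel₀ hm0
      rw [hi]; push_cast; ring
  · rw [coeff_sb_of_not_dvd _ _ _ _ hd, coeff_sb_of_not_dvd]
    intro h
    exact hd ((Dvd.intro _ (by push_cast; rfl)).trans h)

theorem isAlg_map (σ : ℂ ≃+* ℂ) {a : ℂ} (ha : IsAlgebraic ℚ a) : IsAlgebraic ℚ (σ a) :=
  ha.algHom (σ : ℂ →+* ℂ).toRatAlgHom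

/-- `σ` on the algebraic elements of `O` -/
def resO {O : ValuationSubring ℂ} (σ : ℂ ≃+* ℂ)
    (h : ∀ z ∈ O, IsAlgebraic ℚ z → σ z ∈ O) : AO O →+* AO O where
  toFun a := ⟨σ a, h a a.2.1 a.2.2, isAlg_map σ a.2.2⟩
  map_one' := Subtype.ext (map_one σ)
  map_mul' _ _ := Subtype.ext (map_mul σ _ _)
  map_zero' := Subtype.ext (map_zero σ)
  map_add' _ _ := Subtype.ext (map_add σ _ _)

/-- **Eichler-Shimura**, multiplicative form -/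
theorem es_mem (hC : ChevStmt) (hK : KeyStmt) {B : ℕ} [NeZero B] (G : Geo B) (H : Hk G)
    (n ℓ : ℕ) (hℓ : ℓ.Prime) (hB : ¬ ℓ ∣ B) (h2 : ℓ ≠ 2) (O : ValuationSubring ℂ)
    (hO : O.valuation (ℓ : ℂ) < 1) (σ : ℂ ≃+* ℂ)
    (hσ : ∀ z ∈ O, IsAlgebraic ℚ z → σ z ∈ O ∧ O.valuation (σ z - z ^ ℓ) < 1)
    (f : G.Kˣ) (hf : f ∈ G.U (2 ^ n))
    (ha : ∀ k, IsAlgebraic ℚ ((G.e (f : G.K)).coeff k))
    (hD : ∀ k, IsAlgebraic ℚ ((G.e (H.D ℓ (f : G.K))).coeff k)) :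
    H.T ℓ f * (G.su σ f * G.su σ⁻¹ (G.gu (H.D ℓ) f) ^ ℓ)⁻¹ ∈ G.pw (2 ^ n) := by
  have : Fact ℓ.Prime := ⟨hℓ⟩
  obtain ⟨W, hW⟩ := hC O
  have hB0 : B ≠ 0 := NeZero.ne B
  -- the two presentations
  obtain ⟨c, x, y, hc, hca, hxa, hya, hxO, hyO, hx1, hy1, hxy⟩ :=
    H630.G.prim hB0 G O (f : G.K) f.ne_zero ha
  set h : G.Kˣ := G.su σ⁻¹ (G.gu (H.D ℓ) f) with hh
  have heh : G.e (h : G.K) = cm σ⁻¹ (G.e (H.D ℓ (f : G.K))) := by
    rw [hh, Geo.val_su, Geo.e_s, Geo.val_gu]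
  have hha : ∀ k, IsAlgebraic ℚ ((G.e (h : G.K)).coeff k) := by
    intro k
    rw [heh, coeff_cm]
    exact isAlg_map _ (hD k)
  obtain ⟨c', x', y', hc', hca', hxa', hya', hxO', hyO', hx1', hy1', hxy'⟩ :=
    H630.G.prim hB0 G O (h : G.K) h.ne_zero hha
  have hx0 := ne_zero_of_coeff hx1
  have hy0 := ne_zero_of_coeff hy1
  have hx0' := ne_zero_of_coeff hx1'
  have hy0' := ne_zero_of_coeff hy1'
  -- the Frobenius lift
  have hσO : ∀ z ∈ O, IsAlgebraic ℚ z → σ z ∈ O := fun z h1 h2 => (hσ z h1 h2).1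
  have hr : ∀ a : AO O, σ (a : ℂ) = (resO σ hσO a : ℂ) := fun a => rfl
  have hr2 : ∀ a : AO O, resO σ hσO a - a ^ ℓ ∈ IO O := fun a => (hσ a a.2.1 a.2.2).2
  set ζ : ℂ := Complex.exp (2 * Real.pi * Complex.I / ℓ) with hζd
  have hζ : IsPrimitiveRoot ζ ℓ := Complex.isPrimitiveRoot_exp ℓ hℓ.ne_zero
  obtain ⟨nx, hnx, hnxO, hnxc⟩ := norm_cong O ℓ h2 hO σ _ hr hr2 ζ hζ x
    (fun k => ⟨hxO k, hxa k⟩)
  obtain ⟨ny, hny, hnyO, hnyc⟩ := norm_cong O ℓ h2 hO σ _ hr hr2 ζ hζ y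
    (fun k => ⟨hyO k, hya k⟩)
  have hX := frob_cong O ℓ hO σ _ hr hr2 x' (fun k => ⟨hxO' k, hxa' k⟩)
  have hY := frob_cong O ℓ hO σ _ hr hr2 y' (fun k => ⟨hyO' k, hya' k⟩)
  set X : LS := sb ℓ hℓ.pos (cm σ x') with hXd
  set Y : LS := sb ℓ hℓ.pos (cm σ y') with hYd
  have hcmO : ∀ z : LS, (∀ k, z.coeff k ∈ O) → (∀ k, IsAlgebraic ℚ (z.coeff k)) →
      ∀ k, (cm σ z).coeff k ∈ O := fun z h1 h2 k => hσO _ (h1 k) (h2 k)
  have hcm1 : ∀ z : LS, (∃ k, z.coeff k = 1) → ∃ k, (cm σ z).coeff k = 1 := by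
    rintro z ⟨k, hk⟩
    exact ⟨k, by rw [coeff_cm, hk, map_one]⟩
  have hcm0 : ∀ z : LS, z ≠ 0 → cm σ z ≠ 0 := fun z hz => (map_ne_zero _).2 hz
  have hX0 : X ≠ 0 := sb_ne_zero _ _ (hcm0 _ hx0')
  have hY0 : Y ≠ 0 := sb_ne_zero _ _ (hcm0 _ hy0')
  -- expansion of `T f`
  have hT := H.Te ℓ hℓ hB ζ hζ f
  have hP : (∏ j ∈ Finset.range ℓ, rs (ζ ^ j) (pow_ne_zero _ (hζ.ne_zero hℓ.ne_zero))
      (G.e (f : G.K))) * sb ℓ hℓ.pos ny = C (c ^ ℓ) * sb ℓ hℓ.pos nx := by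
    rw [hnx, hny, ← Finset.prod_mul_distrib]
    have : ∀ j ∈ Finset.range ℓ,
        rs (ζ ^ j) (pow_ne_zero _ (hζ.ne_zero hℓ.ne_zero)) (G.e (f : G.K)) *
          rs (ζ ^ j) (pow_ne_zero _ (hζ.ne_zero hℓ.ne_zero)) y =
        C c * rs (ζ ^ j) (pow_ne_zero _ (hζ.ne_zero hℓ.ne_zero)) x := by
      intro j _
      rw [← map_mul, hxy, map_mul, rs_C]
    rw [Finset.prod_congr rfl this, Finset.prod_mul_distrib, Finset.prod_const,
      Finset.card_range, map_pow]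
  have hDf : G.e (H.D ℓ (f : G.K)) * cm σ y' = C (σ c') * cm σ x' := by
    have h3 : cm σ (G.e (h : G.K)) = G.e (H.D ℓ (f : G.K)) := by
      rw [heh]; ext k; simp [RingAut.inv_apply]
    rw [← h3, ← map_mul, hxy', map_mul, cm_C]
  have hTf : G.e (H.T ℓ f : G.K) * (ny * Y) = C (c ^ ℓ * σ c') * (nx * X) := by
    apply (sb ℓ hℓ.pos).injective
    rw [map_mul (sb ℓ hℓ.pos) (G.e _), hT, map_mul (sb ℓ hℓ.pos) ny,
      map_mul (sb ℓ hℓ.pos) (C (c ^ ℓ * σ c')), map_mul (sb ℓ hℓ.pos) nx,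
      sb_sb' ℓ ℓ hℓ.pos hℓ.pos, sb_C]
    have h4 : sb ℓ hℓ.pos (sb ℓ hℓ.pos (G.e (H.D ℓ (f : G.K)))) * sb ℓ hℓ.pos Y =
        C (σ c') * sb ℓ hℓ.pos X := by
      rw [hYd, hXd, ← map_mul, ← map_mul, hDf, map_mul, map_mul, sb_C, sb_C]
    calc _ = ((∏ j ∈ Finset.range ℓ, rs (ζ ^ j) (pow_ne_zero _ (hζ.ne_zero hℓ.ne_zero))
              (G.e (f : G.K))) * sb ℓ hℓ.pos ny) *
            (sb ℓ hℓ.pos (sb ℓ hℓ.pos (G.e (H.D ℓ (f : G.K)))) * sb ℓ hℓ.pos Y) := by ring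
      _ = _ := by rw [hP, h4, map_mul (C : ℂ →+* LS)]; ring
  have hsf : G.e (G.su σ f : G.K) * cm σ y = C (σ c) * cm σ x := by
    rw [Geo.val_su, Geo.e_s, ← map_mul, hxy, map_mul, cm_C]
  have hny0 : ny ≠ 0 := by
    rintro rfl
    rw [map_zero] at hny
    exact Finset.prod_ne_zero_iff.2 (fun j _ => (map_ne_zero _).2 hy0) hny.symm
  -- the quotient
  set F : LS := (nx * (cm σ x)⁻¹) * (ny * (cm σ y)⁻¹)⁻¹ * (x' ^ ℓ * X⁻¹)⁻¹ * (y' ^ ℓ * Y⁻¹) with hF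
  set κ : ℂ := c ^ ℓ * σ c' * (σ c * c' ^ ℓ)⁻¹ with hκ
  have hσc : σ c ≠ 0 := (map_ne_zero _).2 hc
  have hσc' : σ c' ≠ 0 := (map_ne_zero _).2 hc'
  have hκ0 : κ ≠ 0 := by
    rw [hκ]
    exact mul_ne_zero (mul_ne_zero (pow_ne_zero _ hc) hσc')
      (inv_ne_zero (mul_ne_zero hσc (pow_ne_zero _ hc')))
  set q : G.Kˣ := H.T ℓ f * (G.su σ f * h ^ ℓ)⁻¹ with hq
  have hCne : ∀ a : ℂ, a ≠ 0 → (C a : LS) ≠ 0 := fun a h => (map_ne_zero _).2 h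
  have heq : G.e (q : G.K) = C κ * F := by
    have e1 : G.e (H.T ℓ f : G.K) = C (c ^ ℓ * σ c') * (nx * X) * (ny * Y)⁻¹ := by
      rw [eq_mul_inv_iff_mul_eq₀ (mul_ne_zero hny0 hY0), hTf]
    have e2 : G.e (G.su σ f : G.K) = C (σ c) * cm σ x * (cm σ y)⁻¹ := by
      rw [eq_mul_inv_iff_mul_eq₀ (hcm0 _ hy0), hsf]
    have e3 : G.e (h : G.K) = C c' * x' * y'⁻¹ := by
      rw [eq_mul_inv_iff_mul_eq₀ hy0', hxy']
    have h5 := hcm0 _ hx0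
    have h6 := hcm0 _ hy0
    have hκC : (C κ : LS) = C (c ^ ℓ * σ c') * (C (σ c) * C c' ^ ℓ)⁻¹ := by
      rw [hκ, map_mul (C : ℂ →+* LS) (c ^ ℓ * σ c'), map_inv₀, map_mul (C : ℂ →+* LS) (σ c),
        map_pow (C : ℂ →+* LS) c']
    rw [hq, Units.val_mul, map_mul, Units.val_inv_eq_inv_val, Units.val_mul,
      Units.val_pow_eq_pow_val, map_inv₀, map_mul, map_pow, e1, e2, e3, hκC, hF,
      mul_pow (C c' * x'), mul_pow (C c'), inv_pow]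
    have h7 := hCne _ hσc
    have h8 := hCne _ hc'
    field_simp
  -- `F ≡ 1`
  have hN : 0 < 2 ^ n := pow_pos (by norm_num) n
  have o1 : One W (sb (2 ^ n) hN nx * (sb (2 ^ n) hN (cm σ x))⁻¹) :=
    ratio hW (hcmO x hxO hxa) (hcm1 x hx1) hnxc _ _
  have o2 : One W (sb (2 ^ n) hN ny * (sb (2 ^ n) hN (cm σ y))⁻¹) :=
    ratio hW (hcmO y hyO hya) (hcm1 y hy1) hnyc _ _
  have hneg : ∀ (a b : LS), (∀ k, O.valuation ((b - a).coeff k) < 1) →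
      ∀ k, O.valuation ((a - b).coeff k) < 1 := by
    intro a b h k
    have : (a - b).coeff k = -(b - a).coeff k := by
      rw [HahnSeries.coeff_sub, HahnSeries.coeff_sub]; ring
    rw [this, Valuation.map_neg]
    exact h k
  have o3 : One W (sb (2 ^ n) hN (x' ^ ℓ) * (sb (2 ^ n) hN X)⁻¹) :=
    ratio hW (sb_mem _ _ (hcmO x' hxO' hxa')) (sb_one_coeff _ _ (hcm1 x' hx1')) (hneg _ _ hX) _ _
  have o4 : One W (sb (2 ^ n) hN (y' ^ ℓ) * (sb (2 ^ n) hN Y)⁻¹) :=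
    ratio hW (sb_mem _ _ (hcmO y' hyO' hya')) (sb_one_coeff _ _ (hcm1 y' hy1')) (hneg _ _ hY) _ _
  have oF : One W (sb (2 ^ n) hN F) := by
    rw [hF, map_mul, map_mul, map_mul, map_inv₀, map_inv₀, map_mul, map_mul, map_mul, map_mul,
      map_inv₀, map_inv₀, map_inv₀, map_inv₀]
    exact ((o1.mul o2.inv).mul o3.inv).mul o4
  -- divide by the constant
  set k0 : G.Kˣ := Units.map (algebraMap ℂ G.K : ℂ →* G.K) (Units.mk0 κ hκ0) with hk0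
  have hk1 : k0 ∈ G.pw (2 ^ n) := G.const_mem_pw _ hN κ hκ0
  have hqU : q ∈ G.U (2 ^ n) := by
    rw [hq]
    exact mul_mem (H.TU ℓ hℓ hB n f hf) (inv_mem (mul_mem (G.su_mem_U σ hf)
      (pow_mem (G.su_mem_U σ⁻¹ (G.gu_mem_U _ hf)) ℓ)))
  have hq2 : q * k0⁻¹ ∈ G.pw (2 ^ n) := by
    refine hK B G n ℓ hℓ hB h2 O hO W hW _ (mul_mem hqU (inv_mem (G.pw_le_U _ hk1))) ?_
    have h9 : G.e ((q * k0⁻¹ : G.Kˣ) : G.K) = F := by
      rw [Units.val_mul, Units.val_inv_eq_inv_val, map_mul, map_inv₀, heq]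
      have h10 : G.e (k0 : G.K) = C κ := by
        rw [hk0]; exact G.e_C κ
      rw [h10]
      have := hCne _ hκ0
      field_simp
    rw [h9]
    exact oF
  have h11 := mul_mem hq2 hk1
  rwa [inv_mul_cancel_right] at h11

/-- **Eichler-Shimura on classes** -/
theorem es_cl (hC : ChevStmt) (hK : KeyStmt) {B : ℕ} [NeZero B] (G : Geo B) (H : Hk G)
    (n ℓ : ℕ) (hℓ : ℓ.Prime) (hB : ¬ ℓ ∣ B) (h2 : ℓ ≠ 2) (O : ValuationSubring ℂ)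
    (hO : O.valuation (ℓ : ℂ) < 1) (σ : ℂ ≃+* ℂ)
    (hσ : ∀ z ∈ O, IsAlgebraic ℚ z → σ z ∈ O ∧ O.valuation (σ z - z ^ ℓ) < 1)
    (f : G.Kˣ) (hf : f ∈ G.U (2 ^ n))
    (ha : ∀ k, IsAlgebraic ℚ ((G.e (f : G.K)).coeff k))
    (hD : ∀ k, IsAlgebraic ℚ ((G.e (H.D ℓ (f : G.K))).coeff k)) :
    G.cl (2 ^ n) (H.T ℓ f) (H.TU ℓ hℓ hB n f hf) =
      G.act (2 ^ n) σ (G.cl _ f hf) *
        (G.act (2 ^ n) σ⁻¹ (G.cl _ (G.gu (H.D ℓ) f) (G.gu_mem_U _ hf))) ^ ℓ := by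
  have h := es_mem hC hK G H n ℓ hℓ hB h2 O hO σ hσ f hf ha hD
  rw [Geo.act_cl, Geo.act_cl, ← Geo.cl_pow, ← Geo.cl_mul, Geo.cl_eq_iff]
  have h3 := inv_mem h
  rw [mul_inv_rev, inv_inv, mul_comm] at h3
  exact h3

end Vale.Agent.P022.H542.L3
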