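import Vale.Agent.P022.H542.L3.Geo
import Vale.Agent.P022.H236.Esf

/-! # P022-L3, chapter G: formal Eichler-Shimura congruences for Laurent series
over the algebraic elements of a valuation ring `O` of `ℂ`. -/

noncomputable section

open HahnSeries

namespace Vale.Agent.P022.H542.L3

/-- the algebraic elements of `O` -/
def AO (O : ValuationSubring ℂ) : Subring ℂ where
  carrier := {x | x ∈ O ∧ IsAlgebraic ℚ x}
  one_mem' := ⟨one_mem _, isAlgebraic_one⟩
  zero_mem' := ⟨zero_mem _, isAlgebraic_zero⟩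
  mul_mem' h1 h2 := ⟨mul_mem h1.1 h2.1, h1.2.mul h2.2⟩
  add_mem' h1 h2 := ⟨add_mem h1.1 h2.1, h1.2.add h2.2⟩
  neg_mem' h1 := ⟨neg_mem h1.1, h1.2.neg⟩

/-- the ideal of the elements of `AO` of valuation `< 1` -/
def IO (O : ValuationSubring ℂ) : Ideal (AO O) where
  carrier := {x | O.valuation (x : ℂ) < 1}
  zero_mem' := by simp
  add_mem' {a b} ha hb := by
    show O.valuation ((a : ℂ) + b) < 1
    exact lt_of_le_of_lt (O.valuation.map_add _ _) (max_lt ha hb)
  smul_mem' c x hx := by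
    show O.valuation ((c : ℂ) * x) < 1
    rw [map_mul]
    exact lt_of_le_of_lt (mul_le_of_le_one_left' ((O.valuation_le_one_iff _).2 c.2.1)) hx

theorem mem_IO {O : ValuationSubring ℂ} {x : AO O} : x ∈ IO O ↔ O.valuation (x : ℂ) < 1 := Iff.rfl

theorem IO_pow {O : ValuationSubring ℂ} {x : AO O} {k : ℕ} (h : x ^ k ∈ IO O) :
    x ∈ IO O := by
  rw [mem_IO] at *
  by_contra hc
  rw [not_lt] at hc
  have h2 : (1 : O.ValueGroup) ≤ O.valuation (x : ℂ) ^ k := one_le_pow_of_one_le' hc k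
  rw [← map_pow] at h2
  exact absurd h (not_lt.2 (by simpa using h2))

/-- `A⟦X⟧ → ℂ((t))` -/
def J (O : ValuationSubring ℂ) : PowerSeries (AO O) →+* LS :=
  (HahnSeries.ofPowerSeries ℤ ℂ).comp (PowerSeries.map (AO O).subtype)

theorem J_coeff (O : ValuationSubring ℂ) (P : PowerSeries (AO O)) (n : ℕ) :
    (J O P).coeff (n : ℤ) = (PowerSeries.coeff n P : AO O) := by
  show (HahnSeries.ofPowerSeries ℤ ℂ (PowerSeries.map (AO O).subtype P)).coeff (n : ℤ) = _
  rw [HahnSeries.ofPowerSeries_apply_coeff, PowerSeries.coeff_map]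
  rfl

theorem J_coeff_neg (O : ValuationSubring ℂ) (P : PowerSeries (AO O)) {n : ℤ} (hn : n < 0) :
    (J O P).coeff n = 0 := by
  show (HahnSeries.ofPowerSeries ℤ ℂ (PowerSeries.map (AO O).subtype P)).coeff n = _
  have := PowerSeries.coeff_coe (R := ℂ) (PowerSeries.map (AO O).subtype P) n
  rw [this, if_pos hn]

theorem rs_J (O : ValuationSubring ℂ) (a : AO O) (ha : (a : ℂ) ≠ 0) (P : PowerSeries (AO O)) :
    rs (a : ℂ) ha (J O P) = J O (PowerSeries.rescale a P) := by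
  ext n
  rw [coeff_rs]
  rcases lt_or_ge n 0 with h | h
  · rw [J_coeff_neg O _ h, J_coeff_neg O _ h, mul_zero]
  · lift n to ℕ using h
    rw [J_coeff, J_coeff, PowerSeries.coeff_rescale]
    simp

theorem sb_J (O : ValuationSubring ℂ) (l : ℕ) (hl : 0 < l) (P : PowerSeries (AO O)) :
    sb l hl (J O P) = J O (PowerSeries.expand l hl.ne' P) := by
  ext n
  rcases lt_or_ge n 0 with h | h
  · rw [J_coeff_neg O _ h]
    by_cases hd : (l : ℤ) ∣ n
    · obtain ⟨k, rfl⟩ := hd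
      rw [coeff_sb_mul, J_coeff_neg]
      by_contra hk
      rw [not_lt] at hk
      have : (0 : ℤ) ≤ l * k := by positivity
      omega
    · exact coeff_sb_of_not_dvd _ _ _ _ hd
  · lift n to ℕ using h
    rw [J_coeff, PowerSeries.coeff_expand]
    by_cases hd : l ∣ n
    · obtain ⟨k, rfl⟩ := hd
      rw [if_pos (dvd_mul_right _ _), Nat.mul_div_cancel_left _ hl]
      push_cast
      rw [coeff_sb_mul, J_coeff]
    · rw [if_neg hd, coeff_sb_of_not_dvd _ _ _ _ (by exact_mod_cast hd)]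
      simp

theorem cm_J (O : ValuationSubring ℂ) (σ : ℂ ≃+* ℂ) (σ' : AO O →+* AO O)
    (h : ∀ a : AO O, σ (a : ℂ) = (σ' a : ℂ)) (P : PowerSeries (AO O)) :
    cm σ (J O P) = J O (PowerSeries.map σ' P) := by
  ext n
  rw [coeff_cm]
  rcases lt_or_ge n 0 with hn | hn
  · rw [J_coeff_neg O _ hn, J_coeff_neg O _ hn, map_zero]
  · lift n to ℕ using hn
    rw [J_coeff, J_coeff, PowerSeries.coeff_map, h]

/-- a Laurent series with coefficients in `AO` is `t^m` times a power series -/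
theorem exists_J (O : ValuationSubring ℂ) (x : LS) (hx : ∀ n, x.coeff n ∈ AO O) :
    ∃ (m : ℤ) (P : PowerSeries (AO O)), x = single m 1 * J O P := by
  refine ⟨x.order, PowerSeries.mk fun n => ⟨x.coeff (x.order + n), hx _⟩, ?_⟩
  ext n
  rw [HahnSeries.coeff_single_mul, one_mul]
  rcases lt_or_ge (n - x.order) 0 with h | h
  · rw [J_coeff_neg O _ h]
    exact HahnSeries.coeff_eq_zero_of_lt_order (by omega)
  · obtain ⟨k, hk⟩ := Int.eq_ofNat_of_zero_le h
    rw [hk, J_coeff, PowerSeries.coeff_mk]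
    show x.coeff n = x.coeff (x.order + k)
    congr 1; omega

theorem val_J (O : ValuationSubring ℂ) (m : ℤ) (P : PowerSeries (AO O))
    (hP : ∀ n, PowerSeries.coeff n P ∈ IO O) (n : ℤ) :
    O.valuation ((single m 1 * J O P : LS).coeff n) < 1 := by
  rw [HahnSeries.coeff_single_mul, one_mul]
  rcases lt_or_ge (n - m) 0 with h | h
  · rw [J_coeff_neg O _ h]; simp
  · obtain ⟨k, hk⟩ := Int.eq_ofNat_of_zero_le h
    rw [hk, J_coeff]
    exact hP k

theorem mem_J (O : ValuationSubring ℂ) (m : ℤ) (P : PowerSeries (AO O)) (n : ℤ) :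
    (single m 1 * J O P : LS).coeff n ∈ AO O := by
  rw [HahnSeries.coeff_single_mul, one_mul]
  rcases lt_or_ge (n - m) 0 with h | h
  · rw [J_coeff_neg O _ h]; exact zero_mem _
  · obtain ⟨k, hk⟩ := Int.eq_ofNat_of_zero_le h
    rw [hk, J_coeff]
    exact (PowerSeries.coeff k P).2

theorem sb_single (l : ℕ) (hl : 0 < l) (m : ℤ) (a : ℂ) :
    sb l hl (single m a) = single (l * m) a := by
  ext n
  by_cases hd : (l : ℤ) ∣ n
  · obtain ⟨k, rfl⟩ := hd
    rw [coeff_sb_mul, HahnSeries.coeff_single, HahnSeries.coeff_single]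
    have hl' : (l : ℤ) ≠ 0 := by exact_mod_cast hl.ne'
    by_cases hk : k = m
    · rw [if_pos hk, if_pos (by rw [hk])]
    · rw [if_neg hk, if_neg (fun h => hk (mul_left_cancel₀ hl' h))]
  · rw [coeff_sb_of_not_dvd _ _ _ _ hd, HahnSeries.coeff_single, if_neg]
    rintro rfl
    exact hd (dvd_mul_right _ _)

theorem rs_single (a : ℂ) (ha : a ≠ 0) (m : ℤ) : rs a ha (single m 1) = C (a ^ m) * single m 1 := by
  ext n
  rw [coeff_rs, HahnSeries.C_apply, HahnSeries.single_mul_single, HahnSeries.coeff_single,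
    HahnSeries.coeff_single]
  split_ifs with h1 h2 h2
  · simp [h1]
  · exact absurd (by omega) h2
  · exact absurd (by omega) h1
  · simp

/-- **(L2)** `(x^σ)(t^ℓ) ≡ x^ℓ` -/
theorem frob_cong (O : ValuationSubring ℂ) (l : ℕ) [hl : Fact l.Prime]
    (hO : O.valuation (l : ℂ) < 1) (σ : ℂ ≃+* ℂ) (σ' : AO O →+* AO O)
    (h : ∀ a : AO O, σ (a : ℂ) = (σ' a : ℂ)) (hσ : ∀ a : AO O, σ' a - a ^ l ∈ IO O)
    (x : LS) (hx : ∀ n, x.coeff n ∈ AO O) (n : ℤ) :
    O.valuation ((sb l hl.out.pos (cm σ x) - x ^ l : LS).coeff n) < 1 := by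
  obtain ⟨m, P, rfl⟩ := exists_J O x hx
  have hI : ((l : ℕ) : AO O) ∈ IO O := by rw [mem_IO]; simpa using hO
  have hc := H236.expand_cg hI P σ' hσ
  have e1 : sb l hl.out.pos (cm σ (single m 1 * J O P)) - (single m 1 * J O P) ^ l =
      single (l * m) 1 * J O (PowerSeries.expand l hl.out.ne_zero (PowerSeries.map σ' P) - P ^ l) := by
    rw [map_mul, map_mul, cm_single, show σ 1 = 1 from map_one σ, sb_single, cm_J O σ σ' h, sb_J,
      mul_pow, HahnSeries.single_pow, one_pow, ← map_pow (J O), nsmul_eq_mul, map_sub, mul_sub]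
  rw [e1]
  exact val_J O _ _ (fun k => by rw [map_sub]; exact hc k) n

/-- **(L1)** `∏_j x(ζ^j t) = z(t^ℓ)` with `z ≡ x^σ` -/
theorem norm_cong (O : ValuationSubring ℂ) (l : ℕ) [hl : Fact l.Prime] (hodd : l ≠ 2)
    (hO : O.valuation (l : ℂ) < 1) (σ : ℂ ≃+* ℂ) (σ' : AO O →+* AO O)
    (h : ∀ a : AO O, σ (a : ℂ) = (σ' a : ℂ)) (hσ : ∀ a : AO O, σ' a - a ^ l ∈ IO O)
    (ζ : ℂ) (hζ : IsPrimitiveRoot ζ l)
    (x : LS) (hx : ∀ n, x.coeff n ∈ AO O) :
    ∃ z : LS, sb l hl.out.pos z =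
      ∏ j ∈ Finset.range l, rs (ζ ^ j) (pow_ne_zero _ (hζ.ne_zero hl.out.ne_zero)) x ∧
      (∀ n, z.coeff n ∈ AO O) ∧ ∀ n, O.valuation ((z - cm σ x : LS).coeff n) < 1 := by
  obtain ⟨m, P, rfl⟩ := exists_J O x hx
  have hI : ((l : ℕ) : AO O) ∈ IO O := by rw [mem_IO]; simpa using hO
  have hzO : ζ ∈ O := by
    rw [← O.valuation_le_one_iff]
    by_contra hc
    rw [not_le] at hc
    have h2 : (1 : O.ValueGroup) < O.valuation ζ ^ l := one_lt_pow₀ hc hl.out.ne_zero
    rw [← map_pow, hζ.pow_eq_one, map_one] at h2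
    exact lt_irrefl _ h2
  have hza : IsAlgebraic ℚ ζ :=
    (IsIntegral.of_pow hl.out.pos (by rw [hζ.pow_eq_one]; exact isIntegral_one)).isAlgebraic
  let z : AO O := ⟨ζ, hzO, hza⟩
  have hz1 : z ^ l = 1 := Subtype.ext hζ.pow_eq_one
  have hz2 : ∀ n, z ^ n = 1 → l ∣ n := fun n hn =>
    (hζ.pow_eq_one_iff_dvd n).1 (congrArg Subtype.val hn)
  have hz3 : z - 1 ∈ IO O := by
    refine IO_pow (k := l) ?_
    obtain ⟨r, hr⟩ := exists_add_pow_prime_eq hl.out (z - 1) 1
    rw [sub_add_cancel, hz1, one_pow] at hr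
    have h5 : (z - 1) ^ l = -((l : AO O) * ((z - 1) * 1 * r)) := by
      linear_combination (-1 : AO O) * hr
    rw [h5]
    exact neg_mem (Ideal.mul_mem_right _ _ hI)
  have hlo : Odd l := hl.out.odd_of_ne_two hodd
  refine ⟨single m 1 * J O (H236.nmP l z P), ?_, mem_J O _ _, ?_⟩
  · rw [map_mul, sb_single, sb_J, H236.expand_nmP hl.out.ne_zero hz1 hz2]
    have hr : ∀ j : ℕ, rs (ζ ^ j) (pow_ne_zero _ (hζ.ne_zero hl.out.ne_zero)) (single m 1 * J O P) =
        C ((ζ ^ j) ^ m) * single m 1 * J O (PowerSeries.rescale (z ^ j) P) := by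
      intro j
      rw [map_mul, rs_single]
      congr 1
      have := rs_J O (z ^ j) (by
        show ((z : ℂ)) ^ j ≠ 0
        exact pow_ne_zero _ (hζ.ne_zero hl.out.ne_zero)) P
      exact this
    have h1 : ∏ j ∈ Finset.range l, (ζ ^ j) ^ m = 1 := by
      rw [Finset.prod_zpow, H236.prod_zeta hlo hζ.pow_eq_one, one_zpow]
    have h2 : ∏ j ∈ Finset.range l, (C ((ζ ^ j) ^ m) : LS) = 1 := by
      rw [← (map_prod (C : ℂ →+* LS) _ _), h1, map_one]
    have h3 : ∏ j ∈ Finset.range l, J O (PowerSeries.rescale (z ^ j) P) = J O (H236.nm l z P) := by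
      rw [H236.nm, map_prod]
    have h4 : ∏ _j ∈ Finset.range l, (single m 1 : LS) = single ((l : ℤ) * m) 1 := by
      rw [Finset.prod_const, Finset.card_range, HahnSeries.single_pow, one_pow, nsmul_eq_mul]
    rw [Finset.prod_congr rfl (fun j _ => hr j), Finset.prod_mul_distrib, Finset.prod_mul_distrib,
      h2, h3, h4, one_mul]
  · intro n
    have e1 : single m 1 * J O (H236.nmP l z P) - cm σ (single m 1 * J O P) =
        single m 1 * J O (H236.nmP l z P - PowerSeries.map σ' P) := by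
      rw [map_mul, cm_single, show σ 1 = 1 from map_one σ, cm_J O σ σ' h, map_sub, mul_sub]
    rw [e1]
    have hc := H236.nmP_cg hI hz3 P σ' hσ
    exact val_J O _ _ (fun k => by rw [map_sub]; exact hc k) n

end Vale.Agent.P022.H542.L3
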